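import Vale.Agent.Results.P095.OuterClass

/-!
Pointwise inner actions of arbitrary groups on simple unital `D`-stable C*-algebras are
equivariantly `D`-stable (for instance `D` the Jiang-Su algebra).
-/

namespace Vale.Agent.Results.P095.InnerActions

open Vale.Agent.Results.P095.OuterClass

theorem result {G A D C : Type*} [Group G] [CStarAlgebra A] [IsSimpleRing A] [CStarAlgebra D]
    [CStarAlgebra C] (τ : A →ₗ[ℂ] D →ₗ[ℂ] C) (hτ : IsCStarTensor τ)
    (Ψ : A ≃⋆ₐ[ℂ] C) (α : G →* (A ≃⋆ₐ[ℂ] A))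
    (hinn : ∀ g, ∃ v : unitary A, ∀ a, α g a = v * a * star (v : A))
    (γ : G →* (C ≃⋆ₐ[ℂ] C)) (hγ : IsTensorId τ α γ) : CocycleConj α γ := by
  refine OuterClass.result τ hτ α 1 ?_ γ 1 hγ ?_ ?_
  · intro g
    obtain ⟨v, hv⟩ := hinn g
    exact ⟨v, fun a => by simpa using hv a⟩
  · intro g a d
    simp
  · refine ⟨Ψ, fun _ => 1, ?_, ?_⟩
    · intro g h
      simp
    · intro g a
      simp

end Vale.Agent.Results.P095.InnerActions
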