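import Mathlib

/-!
Equivariant stability under tensoring with a unital C*-algebra `D` (for instance the Jiang-Su
algebra) only depends on the class of the action modulo inner automorphisms.
-/

namespace Vale.Agent.Results.P095.OuterClass

open scoped TensorProduct

/-- Cocycle conjugacy of two actions `α`, `β` of a group `G` on unital C*-algebras `A`, `B`
(for unital `B` the multiplier algebra of `B` is `B` itself): a `*`-isomorphism `Φ : A → B` and a
`β`-cocycle `u : G → U(B)`, `u (g h) = u g * β g (u h)`, with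
`Φ (α g a) = u g * β g (Φ a) * (u g)^*`. -/
def CocycleConj {G A B : Type*} [Group G] [CStarAlgebra A] [CStarAlgebra B]
    (α : G →* (A ≃⋆ₐ[ℂ] A)) (β : G →* (B ≃⋆ₐ[ℂ] B)) : Prop :=
  ∃ (Φ : A ≃⋆ₐ[ℂ] B) (u : G → unitary B),
    (∀ g h, (u (g * h) : B) = u g * β g (u h)) ∧
    ∀ g a, Φ (α g a) = u g * β g (Φ a) * star (u g : B)

/-- `C`, with the bilinear map `τ (a, d) = a ⊗ d`, is a C*-tensor product of `A` and `D`: `τ` is
multiplicative and `*`-preserving, its linearisation is injective on the algebraic tensor product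
and has dense range. So `C` is the completion of the algebraic tensor product for some C*-norm; the
minimal tensor product is an instance (the only one if `D` is nuclear). -/
structure IsCStarTensor {A D C : Type*} [CStarAlgebra A] [CStarAlgebra D] [CStarAlgebra C]
    (τ : A →ₗ[ℂ] D →ₗ[ℂ] C) : Prop where
  map_mul : ∀ a a' d d', τ (a * a') (d * d') = τ a d * τ a' d'
  map_star : ∀ a d, τ (star a) (star d) = star (τ a d)
  injective : Function.Injective (TensorProduct.lift τ)
  denseRange : DenseRange (TensorProduct.lift τ)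

/-- `γ` is the action `α ⊗ id_D` on the tensor product `C`. -/
def IsTensorId {G A D C : Type*} [Group G] [CStarAlgebra A] [CStarAlgebra D] [CStarAlgebra C]
    (τ : A →ₗ[ℂ] D →ₗ[ℂ] C) (α : G →* (A ≃⋆ₐ[ℂ] A)) (γ : G →* (C ≃⋆ₐ[ℂ] C)) : Prop :=
  ∀ g a d, γ g (τ a d) = τ (α g a) d

theorem central_scalar {A : Type*} [CStarAlgebra A] [IsSimpleRing A] (z : A)
    (hz : ∀ a : A, z * a = a * z) : ∃ c : ℂ, z = algebraMap ℂ A c := by
  obtain ⟨c, hc⟩ := spectrum.nonempty z
  refine ⟨c, ?_⟩
  by_contra hne
  have hy0 : algebraMap ℂ A c - z ≠ 0 := fun h => hne (sub_eq_zero.1 h).symm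
  have hyc : algebraMap ℂ A c - z ∈ Subring.center A := by
    rw [Subring.mem_center_iff]
    intro a
    rw [mul_sub, sub_mul, hz a, Algebra.commutes]
  have hF := IsSimpleRing.isField_center A
  obtain ⟨w, hw⟩ := hF.mul_inv_cancel (a := ⟨algebraMap ℂ A c - z, hyc⟩)
    (fun h => hy0 (congrArg Subtype.val h))
  have hw' : (algebraMap ℂ A c - z) * (w : A) = 1 := congrArg Subtype.val hw
  have hw'' : (w : A) * (algebraMap ℂ A c - z) = 1 := by
    rw [← hw']
    exact (Subring.mem_center_iff.1 hyc (w : A))
  exact hc ⟨⟨_, _, hw', hw''⟩, rfl⟩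

theorem tensor_one {A D C : Type*} [CStarAlgebra A] [CStarAlgebra D] [CStarAlgebra C]
    (τ : A →ₗ[ℂ] D →ₗ[ℂ] C) (hτ : IsCStarTensor τ) : τ 1 1 = 1 := by
  have h1 : ∀ x : A ⊗[ℂ] D, τ 1 1 * TensorProduct.lift τ x = TensorProduct.lift τ x := by
    intro x
    induction x using TensorProduct.induction_on with
    | zero => simp
    | tmul a d =>
      rw [TensorProduct.lift.tmul, ← hτ.map_mul, one_mul, one_mul]
    | add x y hx hy => rw [map_add, mul_add, hx, hy]
  have h2 : ∀ c : C, τ 1 1 * c = c := by
    intro c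
    refine hτ.denseRange.induction_on (p := fun c => τ 1 1 * c = c) c ?_ h1
    exact isClosed_eq (continuous_const.mul continuous_id) continuous_id
  simpa using h2 1

theorem result {G A D C : Type*} [Group G] [CStarAlgebra A] [IsSimpleRing A] [CStarAlgebra D]
    [CStarAlgebra C] (τ : A →ₗ[ℂ] D →ₗ[ℂ] C) (hτ : IsCStarTensor τ)
    (α β : G →* (A ≃⋆ₐ[ℂ] A))
    (hinn : ∀ g, ∃ v : unitary A, ∀ a, α g a = v * β g a * star (v : A))
    (γα γβ : G →* (C ≃⋆ₐ[ℂ] C)) (hα : IsTensorId τ α γα) (hβ : IsTensorId τ β γβ)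
    (h : CocycleConj β γβ) : CocycleConj α γα := by
  choose u hu using hinn
  obtain ⟨Φ, v, hv1, hv2⟩ := h
  -- the embedding `j a = a ⊗ 1`
  have j_mul : ∀ a b : A, τ (a * b) 1 = τ a 1 * τ b 1 := by
    intro a b
    rw [← hτ.map_mul, one_mul]
  have j_star : ∀ a : A, τ (star a) 1 = star (τ a 1) := by
    intro a
    rw [← hτ.map_star, star_one]
  have j_one : τ 1 1 = 1 := tensor_one τ hτ
  have uu1 : ∀ g, star (u g : A) * u g = 1 := fun g => Unitary.star_mul_self_of_mem (u g).2
  have uu2 : ∀ g, (u g : A) * star (u g : A) = 1 := fun g => Unitary.mul_star_self_of_mem (u g).2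
  have vv1 : ∀ g, star (v g : C) * v g = 1 := fun g => Unitary.star_mul_self_of_mem (v g).2
  have vv2 : ∀ g, (v g : C) * star (v g : C) = 1 := fun g => Unitary.mul_star_self_of_mem (v g).2
  have J1 : ∀ g, star (τ (u g : A) 1) * τ (u g : A) 1 = 1 := by
    intro g
    rw [← j_star, ← j_mul, uu1, j_one]
  have J2 : ∀ g, τ (u g : A) 1 * star (τ (u g : A) 1) = 1 := by
    intro g
    rw [← j_star, ← j_mul, uu2, j_one]
  have P1 : ∀ g, star (Φ (u g : A)) * Φ (u g : A) = 1 := by
    intro g
    rw [← map_star, ← map_mul, uu1, map_one]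
  have P2 : ∀ g, Φ (u g : A) * star (Φ (u g : A)) = 1 := by
    intro g
    rw [← map_star, ← map_mul, uu2, map_one]
  -- (a)
  have ha0 : ∀ g (x : A ⊗[ℂ] D), γα g (TensorProduct.lift τ x) =
      τ (u g : A) 1 * γβ g (TensorProduct.lift τ x) * star (τ (u g : A) 1) := by
    intro g x
    induction x using TensorProduct.induction_on with
    | zero => simp
    | tmul a d =>
      rw [TensorProduct.lift.tmul, hα, hβ, hu, ← j_star, ← hτ.map_mul, ← hτ.map_mul, one_mul,
        mul_one]
    | add x y hx hy => rw [map_add, map_add, map_add, hx, hy, mul_add, add_mul]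
  have ha : ∀ g (c : C), γα g c = τ (u g : A) 1 * γβ g c * star (τ (u g : A) 1) := by
    intro g c
    refine hτ.denseRange.induction_on
      (p := fun c => γα g c = τ (u g : A) 1 * γβ g c * star (τ (u g : A) 1)) c ?_ (ha0 g)
    have c1 : Continuous (γα g) := (StarAlgEquiv.isometry (γα g)).continuous
    have c2 : Continuous (γβ g) := (StarAlgEquiv.isometry (γβ g)).continuous
    exact isClosed_eq c1 ((continuous_const.mul c2).mul continuous_const)
  -- (b)
  have hb : ∀ g k : G, ∃ c : ℂ, (u g : A) * β g (u k) = c • (u (g * k) : A) ∧ c * star c = 1 := by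
    intro g k
    have y1 : star ((u g : A) * β g (u k)) * ((u g : A) * β g (u k)) = 1 := by
      rw [star_mul, ← map_star, mul_assoc, ← mul_assoc (star (u g : A)), uu1, one_mul, ← map_mul,
        uu1, map_one]
    have hy : ∀ a, α (g * k) a = ((u g : A) * β g (u k)) * β (g * k) a *
        star ((u g : A) * β g (u k)) := by
      intro a
      rw [map_mul, map_mul]
      show α g (α k a) = _ * β g (β k a) * _
      rw [hu k, hu g, map_mul, map_mul, star_mul, map_star]
      simp only [mul_assoc]
    have hz : ∀ b : A, (star (u (g * k) : A) * ((u g : A) * β g (u k))) * b =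
        b * (star (u (g * k) : A) * ((u g : A) * β g (u k))) := by
      intro b
      obtain ⟨a, rfl⟩ := (β (g * k)).surjective b
      have e := (hu (g * k) a).symm.trans (hy a)
      -- U b U* = y b y*
      have e2 := congrArg (fun t => star (u (g * k) : A) * t * ((u g : A) * β g (u k))) e
      have l : star (u (g * k) : A) * ((u (g * k) : A) * β (g * k) a * star (u (g * k) : A)) *
          ((u g : A) * β g (u k)) =
          β (g * k) a * (star (u (g * k) : A) * ((u g : A) * β g (u k))) := by
        rw [mul_assoc (u (g * k) : A), ← mul_assoc (star (u (g * k) : A)), uu1, one_mul]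
        simp only [mul_assoc]
      have r : star (u (g * k) : A) * (((u g : A) * β g (u k)) * β (g * k) a *
          star ((u g : A) * β g (u k))) * ((u g : A) * β g (u k)) =
          (star (u (g * k) : A) * ((u g : A) * β g (u k))) * β (g * k) a := by
        rw [mul_assoc (star (u (g * k) : A)), mul_assoc (((u g : A) * β g (u k)) * β (g * k) a), y1,
          mul_one, ← mul_assoc]
      rw [l, r] at e2
      exact e2.symm
    obtain ⟨c, hc⟩ := central_scalar _ hz
    have hyc : (u g : A) * β g (u k) = c • (u (g * k) : A) := by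
      have := congrArg (fun t => (u (g * k) : A) * t) hc
      rw [← mul_assoc, uu2, one_mul] at this
      rw [this, Algebra.algebraMap_eq_smul_one, mul_smul_comm, mul_one]
    refine ⟨c, hyc, ?_⟩
    have e3 := y1
    rw [hyc, star_smul, smul_mul_smul_comm, uu1] at e3
    have e4 : (star c * c) • (1 : A) = (1 : ℂ) • (1 : A) := by rw [e3, one_smul]
    have := smul_left_injective ℂ (one_ne_zero (α := A)) e4
    rw [mul_comm]
    exact this
  -- (c)
  have hw : ∀ g, Φ (u g : A) * v g * star (τ (u g : A) 1) ∈ unitary C := by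
    intro g
    rw [Unitary.mem_iff]
    have J1' : ∀ x, star (τ (u g : A) 1) * (τ (u g : A) 1 * x) = x := by
      intro x; rw [← mul_assoc, J1, one_mul]
    have J2' : ∀ x, τ (u g : A) 1 * (star (τ (u g : A) 1) * x) = x := by
      intro x; rw [← mul_assoc, J2, one_mul]
    have P1' : ∀ x, star (Φ (u g : A)) * (Φ (u g : A) * x) = x := by
      intro x; rw [← mul_assoc, P1, one_mul]
    have P2' : ∀ x, Φ (u g : A) * (star (Φ (u g : A)) * x) = x := by
      intro x; rw [← mul_assoc, P2, one_mul]
    have v1' : ∀ x, star (v g : C) * ((v g : C) * x) = x := by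
      intro x; rw [← mul_assoc, vv1, one_mul]
    have v2' : ∀ x, (v g : C) * (star (v g : C) * x) = x := by
      intro x; rw [← mul_assoc, vv2, one_mul]
    constructor
    · simp only [star_mul, star_star, mul_assoc, P1', v1', J2]
    · simp only [star_mul, star_star, mul_assoc, J1', v2', P2]
  refine ⟨Φ, fun g => ⟨_, hw g⟩, ?_, ?_⟩
  · intro g k
    show Φ (u (g * k) : A) * v (g * k) * star (τ (u (g * k) : A) 1) =
      Φ (u g : A) * v g * star (τ (u g : A) 1) *
        γα g (Φ (u k : A) * v k * star (τ (u k : A) 1))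
    obtain ⟨c, hc, hcc⟩ := hb g k
    have J1' : ∀ x, star (τ (u g : A) 1) * (τ (u g : A) 1 * x) = x := by
      intro x; rw [← mul_assoc, J1, one_mul]
    have hcomm : (v g : C) * γβ g (Φ (u k : A)) = Φ (β g (u k)) * v g := by
      rw [hv2, mul_assoc, vv1, mul_one]
    have hJ : γβ g (τ (u k : A) 1) = τ (β g (u k)) 1 := hβ g _ _
    have e1 : Φ (u g : A) * v g * star (τ (u g : A) 1) *
        γα g (Φ (u k : A) * v k * star (τ (u k : A) 1)) =
        Φ ((u g : A) * β g (u k)) * v (g * k) * star (τ ((u g : A) * β g (u k)) 1) := by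
      rw [ha, map_mul, map_mul, map_star, hJ, j_mul, star_mul, map_mul, hv1]
      simp only [mul_assoc, J1']
      rw [← mul_assoc (v g : C) (γβ g (Φ (u k : A))), hcomm]
      simp only [mul_assoc]
    rw [e1, hc, map_smul, map_smul, LinearMap.smul_apply, star_smul, smul_mul_assoc, smul_mul_assoc,
      mul_smul_comm, smul_smul, hcc, one_smul]
  · intro g a
    show Φ (α g a) = Φ (u g : A) * v g * star (τ (u g : A) 1) * γα g (Φ a) *
      star (Φ (u g : A) * v g * star (τ (u g : A) 1))
    have J1' : ∀ x, star (τ (u g : A) 1) * (τ (u g : A) 1 * x) = x := by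
      intro x; rw [← mul_assoc, J1, one_mul]
    rw [ha, hu, map_mul, map_mul, hv2, map_star]
    simp only [star_mul, star_star, mul_assoc, J1']

end Vale.Agent.Results.P095.OuterClass
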